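import Vale.Agent.P238.Edit

namespace Vale.Agent.P238

open List

def cb (s r : ℕ) : Bool :=
  if r < 2 then true else if r % 2 = 0 then false else s.testBit ((r - 2) / 2)

def bitf (K m : ℕ) (X : ℕ → ℕ) (j : ℕ) : Bool :=
  if j < m * K then cb (X (j / K)) (j % K) else false

def word (n K m : ℕ) (X : ℕ → ℕ) : List Bool := (List.range n).map (bitf K m X)

lemma word_le {n K m : ℕ} (hK : 0 < K) (hn : m * K ≤ n) (X Y : ℕ → ℕ) (S : Finset ℕ) (π : ℕ → ℕ)
    (hS : ∀ j ∈ S, j < m) (hπ : ∀ j ∈ S, π j < m) (hm : StrictMonoOn π S)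
    (hV : ∀ j ∈ S, Y (π j) = X j) :
    ED (word n K m X) (word n K m Y) ≤ 2 * K * (m - S.card) := by
  classical
  set S' := (Finset.range n).filter fun j => m * K ≤ j ∨ j / K ∈ S with hS'
  set π' : ℕ → ℕ := fun j => if j < m * K then π (j / K) * K + j % K else j with hπ'
  have hlt : ∀ j, j / K ∈ S → π (j / K) * K + j % K < m * K := fun j hj => by
    have h1 := hπ _ hj
    have h2 := Nat.mod_lt j hK
    have h3 : (π (j / K) + 1) * K ≤ m * K := Nat.mul_le_mul_right _ h1
    rw [Nat.add_mul] at h3; omega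
  have hmem : ∀ j ∈ S', j < m * K → j / K ∈ S := fun j hj h => by
    rcases (Finset.mem_filter.1 hj).2 with h1 | h1
    · omega
    · exact h1
  have := ED_match (n := n) (bitf K m X) (bitf K m Y) S' π'
    (fun j hj => Finset.mem_range.1 (Finset.mem_filter.1 hj).1) (fun j hj => ?_)
    (fun a ha b hb hab => ?_) (fun j hj => ?_)
  · refine this.trans ?_
    rw [mul_assoc]
    refine Nat.mul_le_mul_left _ ?_
    have h1 : (Finset.range n \ S') ⊆
        ((Finset.range m \ S) ×ˢ Finset.range K).image fun p => p.1 * K + p.2 := by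
      intro j hj
      rw [Finset.mem_sdiff] at hj
      have h2 : ¬ (m * K ≤ j ∨ j / K ∈ S) := fun h => hj.2 (Finset.mem_filter.2 ⟨hj.1, h⟩)
      rw [not_or, not_le] at h2
      refine Finset.mem_image.2 ⟨(j / K, j % K), ?_, Nat.div_add_mod' j K⟩
      simp only [Finset.mem_product, Finset.mem_sdiff, Finset.mem_range]
      exact ⟨⟨(Nat.div_lt_iff_lt_mul hK).2 h2.1, h2.2⟩, Nat.mod_lt _ hK⟩
    have h2 := (Finset.card_le_card h1).trans Finset.card_image_le
    rw [Finset.card_product, Finset.card_sdiff_of_subset (Finset.filter_subset _ _),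
      Finset.card_sdiff_of_subset (fun j hj => Finset.mem_range.2 (hS j hj))] at h2
    rw [Finset.card_range, Finset.card_range, Finset.card_range] at h2
    exact h2.trans (le_of_eq (mul_comm _ _))
  · simp only [hπ']
    split_ifs with h
    · exact (hlt j (hmem j hj h)).trans_le hn
    · exact Finset.mem_range.1 (Finset.mem_filter.1 hj).1
  · simp only [hπ']
    split_ifs with h1 h2 h2
    · have a1 := hmem a ha h1
      have b1 := hmem b hb h2
      rcases (Nat.div_le_div_right (c := K) hab.le).eq_or_lt with h | h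
      · have a2 := Nat.div_add_mod' a K
        have b2 := Nat.div_add_mod' b K
        rw [h] at a2 ⊢
        omega
      · have h3 : (π (a / K) + 1) * K ≤ π (b / K) * K := Nat.mul_le_mul_right _ (hm a1 b1 h)
        have := Nat.mod_lt a hK
        rw [Nat.add_mul] at h3; omega
    · have := hlt a (hmem a ha h1); omega
    · omega
    · exact hab
  · simp only [hπ']
    split_ifs with h
    · have h1 := hmem j hj h
      unfold bitf
      rw [if_pos (hlt j h1), if_pos h, Nat.add_comm, Nat.add_mul_div_right _ _ hK,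
        Nat.add_mul_mod_self_right, Nat.mod_mod, Nat.div_eq_of_lt (Nat.mod_lt _ hK), Nat.zero_add,
        hV _ h1]
    · simp [bitf, h]

lemma sync {κ m : ℕ} (hκ : 0 < κ) (Y : ℕ → ℕ) (j : ℕ) (h0 : bitf (2 * κ + 2) m Y j = true)
    (h1 : bitf (2 * κ + 2) m Y (j + 1) = true) (h2 : bitf (2 * κ + 2) m Y (j + 2) = false) :
    j < m * (2 * κ + 2) ∧ j % (2 * κ + 2) = 0 := by
  set K := 2 * κ + 2 with hK
  have hK0 : 0 < K := by omega
  unfold bitf at h0 h1 h2
  have a0 : j < m * K := by by_contra h; simp [h] at h0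
  have a1 : j + 1 < m * K := by by_contra h; simp [h] at h1
  refine ⟨a0, ?_⟩
  rw [if_pos a0] at h0
  rw [if_pos a1] at h1
  have hr := Nat.mod_lt j hK0
  by_cases hl : j % K + 1 < K
  · have e : (j + 1) % K = j % K + 1 := by
      rw [Nat.add_mod, Nat.mod_eq_of_lt (a := 1) (by omega), Nat.mod_eq_of_lt hl]
    rw [e] at h1
    unfold cb at h0 h1
    split_ifs at h0 h1 <;> omega
  · exfalso
    have e := Nat.div_add_mod' j K
    have e1 : j + 1 = (j / K + 1) * K := by rw [Nat.add_mul]; omega
    have e2 : j / K + 1 < m := by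
      rw [e1] at a1; exact Nat.lt_of_mul_lt_mul_right a1
    have e3 : (j / K + 1 + 1) * K ≤ m * K := Nat.mul_le_mul_right _ e2
    have e4 : j + 2 < m * K := by rw [Nat.add_mul] at e3; omega
    have e5 : (j + 2) % K = 1 := by
      rw [show j + 2 = 1 + (j / K + 1) * K by omega, Nat.add_mul_mod_self_right]
      exact Nat.mod_eq_of_lt (by omega)
    rw [if_pos e4, e5] at h2
    simp [cb] at h2

lemma cb_inj {κ s s' : ℕ} (hs : s < 2 ^ κ) (hs' : s' < 2 ^ κ)
    (h : ∀ r < 2 * κ + 2, cb s r = cb s' r) : s = s' := by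
  refine Nat.eq_of_testBit_eq fun i => ?_
  by_cases hi : i < κ
  · have := h (2 * i + 3) (by omega)
    unfold cb at this
    rw [if_neg (by omega), if_neg (by omega), if_neg (by omega), if_neg (by omega),
      show (2 * i + 3 - 2) / 2 = i by omega] at this
    exact this
  · have := Nat.pow_le_pow_right two_pos (not_lt.1 hi)
    rw [Nat.testBit_lt_two_pow (by omega), Nat.testBit_lt_two_pow (by omega)]

lemma window_get {n K m : ℕ} (X : ℕ → ℕ) (j r : ℕ) (hr : r < K) :
    (((word n K m X).drop j).take K)[r]? =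
      if j + r < n then some (bitf K m X (j + r)) else none := by
  rw [List.getElem?_take_of_lt hr, List.getElem?_drop, word, List.getElem?_map]
  split_ifs with h
  · rw [List.getElem?_range h]; rfl
  · rw [List.getElem?_eq_none (by simpa using h)]; rfl

lemma bitf_mul {K m : ℕ} (X : ℕ → ℕ) {i r : ℕ} (hi : i < m) (hr : r < K) :
    i * K + r < m * K ∧ bitf K m X (i * K + r) = cb (X i) r := by
  have h3 : (i + 1) * K ≤ m * K := Nat.mul_le_mul_right _ hi
  have h4 : i * K + r < m * K := by rw [Nat.add_mul] at h3; omega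
  refine ⟨h4, ?_⟩
  unfold bitf
  rw [if_pos h4, Nat.add_comm, Nat.add_mul_div_right _ _ (by omega), Nat.add_mul_mod_self_right,
    Nat.div_eq_of_lt hr, Nat.zero_add, Nat.mod_eq_of_lt hr]

lemma word_ge {n κ m : ℕ} (hκ : 0 < κ) (hn : m * (2 * κ + 2) ≤ n) (X Y : ℕ → ℕ)
    (hX : ∀ j < m, X j < 2 ^ κ) (hY : ∀ j < m, Y j < 2 ^ κ)
    (h : ∀ (L : ℕ) (α β : ℕ → ℕ), StrictMonoOn α (Set.Iio L) → StrictMonoOn β (Set.Iio L) →
      (∀ r < L, α r < m ∧ β r < m ∧ X (α r) = Y (β r)) → 2 * L ≤ m) :
    m ≤ 2 * (2 * κ + 3) * ED (word n (2 * κ + 2) m X) (word n (2 * κ + 2) m Y) := by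
  set K := 2 * κ + 2 with hK
  have hK0 : 0 < K := by omega
  set C := (List.range m).map fun i => ((word n K m X).drop (i * K)).take K with hC
  have hw : ∀ Z, (word n K m Z).length = n := fun Z => by simp [word]
  have h1 : C <+ win K (word n K m X) := by
    have e1 : win K (word n K m X) =
        (List.range n).map fun j => ((word n K m X).drop j).take K := by
      refine List.ext_getElem? fun j => ?_
      by_cases hj : j < n
      · rw [win_get _ _ _ (by rw [hw]; exact hj), List.getElem?_map, List.getElem?_range hj]; rfl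
      · rw [List.getElem?_eq_none (by rw [win_length, hw]; omega),
          List.getElem?_eq_none (by simpa using hj)]
    have e2 : (List.range m).map (· * K) <+ List.range n := by
      refine sorted_sub ?_ ?_
      · rw [List.pairwise_map]
        exact List.pairwise_lt_range.imp fun hab => Nat.mul_lt_mul_of_pos_right hab hK0
      · intro a ha
        obtain ⟨i, hi, rfl⟩ := List.mem_map.1 ha
        exact ((Nat.mul_lt_mul_of_pos_right (List.mem_range.1 hi) hK0)).trans_le hn
    rw [e1]
    simpa [hC, Function.comp_def] using e2.map fun j => ((word n K m X).drop j).take K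
  obtain ⟨z, a1, a2, a3⟩ := Reach.win K (reach_ED (word n K m X) (word n K m Y)) C h1
  obtain ⟨α, hα⟩ := List.sublist_iff_exists_orderEmbedding_getElem?_eq.1 a1
  obtain ⟨β, hβ⟩ := List.sublist_iff_exists_orderEmbedding_getElem?_eq.1 a2
  have key : ∀ r < z.length, α r < m ∧ β r < m * K ∧ β r % K = 0 ∧ X (α r) = Y (β r / K) := by
    intro r hr
    have b1 := hα r
    have b2 := hβ r
    rw [List.getElem?_eq_getElem hr] at b1 b2
    have c1 : α r < m := by
      have := (List.getElem?_eq_some_iff.1 b1.symm).1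
      simpa [hC] using this
    have c2 : β r < n := by
      have := (List.getElem?_eq_some_iff.1 b2.symm).1
      rwa [win_length, hw] at this
    rw [hC, List.getElem?_map, List.getElem?_range c1] at b1
    rw [win_get _ _ _ (by rw [hw]; exact c2), b1] at b2
    have c3 : ∀ s < K, bitf K m Y (β r + s) = cb (X (α r)) s := by
      intro s hs
      have d1 := window_get (n := n) (m := m) X (α r * K) s hs
      have d2 := window_get (n := n) (m := m) Y (β r) s hs
      have d3 := bitf_mul X c1 hs
      rw [Option.map_some, Option.some.injEq] at b2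
      rw [b2, d2, if_pos (d3.1.trans_le hn), d3.2] at d1
      split_ifs at d1
      exact Option.some.inj d1
    obtain ⟨c4, c5⟩ := sync (m := m) hκ Y (β r) (c3 0 (by omega)) (c3 1 (by omega))
      (c3 2 (by omega))
    have c6 : β r / K < m := (Nat.div_lt_iff_lt_mul hK0).2 c4
    refine ⟨c1, c4, c5, cb_inj (hX _ c1) (hY _ c6) fun s hs => ?_⟩
    rw [← c3 s hs, ← (bitf_mul Y c6 hs).2, Nat.div_mul_cancel (Nat.dvd_of_mod_eq_zero c5)]
  have := h z.length α (fun r => β r / K) (α.strictMono.strictMonoOn _)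
    (fun a ha b hb hab => ?_) fun r hr => ⟨(key r hr).1,
      (Nat.div_lt_iff_lt_mul hK0).2 (key r hr).2.1, (key r hr).2.2.2⟩
  · rw [hC, List.length_map, List.length_range] at a3
    rw [show 2 * κ + 3 = K + 1 by omega, mul_assoc, mul_comm (K + 1)]
    omega
  · have d1 := Nat.div_mul_cancel (Nat.dvd_of_mod_eq_zero (key a ha).2.2.1)
    have d2 := Nat.div_mul_cancel (Nat.dvd_of_mod_eq_zero (key b hb).2.2.1)
    have d3 := β.strictMono hab
    rw [← d1, ← d2] at d3
    exact Nat.lt_of_mul_lt_mul_right d3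

end Vale.Agent.P238
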