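import Mathlib

namespace Vale.Agent.P238

/-- One edit operation on binary words: insert, delete or substitute a single symbol. -/
def Step (x y : List Bool) : Prop :=
  ∃ (u v : List Bool) (c c' : Bool),
    (x = u ++ v ∧ y = u ++ c :: v) ∨ (x = u ++ c :: v ∧ y = u ++ v) ∨
      (x = u ++ c :: v ∧ y = u ++ c' :: v)

/-- `y` is obtained from `x` by `k` successive edit operations. -/
def Reach : ℕ → List Bool → List Bool → Prop
  | 0, x, y => x = y
  | k + 1, x, y => ∃ z, Step x z ∧ Reach k z y

/-- The edit distance: least number of edit operations transforming `x` into `y`. -/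
noncomputable def ED (x y : List Bool) : ℕ := sInf {k | Reach k x y}

/-- The edit distance on `{0,1}^n`. -/
noncomputable def rho {n : ℕ} (x y : Fin n → Bool) : ℝ := ED (List.ofFn x) (List.ofFn y)

/-- The distortion of a map `f` from `{0,1}^n` to `ℓ_1`. -/
noncomputable def distortion {n : ℕ} (f : (Fin n → Bool) → lp (fun _ : ℕ => ℝ) 1) : ℝ :=
  (⨆ p : {p : (Fin n → Bool) × (Fin n → Bool) // p.1 ≠ p.2},
      ‖f p.1.1 - f p.1.2‖ / rho p.1.1 p.1.2) *
    (⨆ p : {p : (Fin n → Bool) × (Fin n → Bool) // p.1 ≠ p.2},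
      rho p.1.1 p.1.2 / ‖f p.1.1 - f p.1.2‖)

/-- `c_1({0,1}^n, ED)`: the infimum of the distortion over injective maps into `ℓ_1`. -/
noncomputable def c1 (n : ℕ) : ℝ :=
  ⨅ f : {f : (Fin n → Bool) → lp (fun _ : ℕ => ℝ) 1 // Function.Injective f}, distortion f.1

end Vale.Agent.P238
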