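import Vale.Agent.P238.Defs

namespace Vale.Agent.P238

open List

lemma Reach.trans : ∀ {k l : ℕ} {x y z : List Bool}, Reach k x y → Reach l y z → Reach (k + l) x z
  | 0, l, x, y, z, h1, h2 => by
    have : x = y := h1
    subst this; simpa using h2
  | k + 1, l, x, y, z, ⟨w, h0, h1⟩, h2 => by
    rw [Nat.add_right_comm]
    exact ⟨w, h0, Reach.trans h1 h2⟩

lemma Step.cons {x y : List Bool} (a : Bool) (h : Step x y) : Step (a :: x) (a :: y) := by
  obtain ⟨u, v, c, c', h⟩ := h
  refine ⟨a :: u, v, c, c', ?_⟩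
  rcases h with ⟨h1, h2⟩ | ⟨h1, h2⟩ | ⟨h1, h2⟩ <;> simp [h1, h2]

lemma Reach.cons (a : Bool) : ∀ {k : ℕ} {x y : List Bool}, Reach k x y → Reach k (a :: x) (a :: y)
  | 0, x, y, h => by
    have : x = y := h
    subst this; rfl
  | _ + 1, _, _, ⟨w, h0, h1⟩ => ⟨a :: w, h0.cons a, Reach.cons a h1⟩

lemma reach_del {z x : List Bool} (h : z <+ x) : Reach (x.length - z.length) x z := by
  induction h with
  | slnil => rfl
  | @cons l₁ l₂ a h ih =>
    have := h.length_le
    rw [length_cons, Nat.sub_add_comm this]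
    exact ⟨l₂, ⟨[], l₂, a, a, Or.inr (Or.inl ⟨rfl, rfl⟩)⟩, ih⟩
  | @cons_cons l₁ l₂ a h ih =>
    rw [length_cons, length_cons, Nat.add_sub_add_right]
    exact ih.cons a

lemma reach_ins {z x : List Bool} (h : z <+ x) : Reach (x.length - z.length) z x := by
  induction h with
  | slnil => rfl
  | @cons l₁ l₂ a h ih =>
    have := h.length_le
    rw [length_cons, Nat.sub_add_comm this]
    exact ih.trans (l := 1) ⟨a :: l₂, ⟨[], l₂, a, a, Or.inl ⟨rfl, rfl⟩⟩, rfl⟩
  | @cons_cons l₁ l₂ a h ih =>
    rw [length_cons, length_cons, Nat.add_sub_add_right]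
    exact ih.cons a

lemma ED_le {z x y : List Bool} (hx : z <+ x) (hy : z <+ y) :
    ED x y ≤ (x.length - z.length) + (y.length - z.length) :=
  Nat.sInf_le ((reach_del hx).trans (reach_ins hy))

lemma reach_ED (x y : List Bool) : Reach (ED x y) x y :=
  Nat.sInf_mem (s := {k | Reach k x y})
    ⟨_, (reach_del (nil_sublist x)).trans (reach_ins (nil_sublist y))⟩

lemma ED_pos {x y : List Bool} (h : x ≠ y) : 0 < ED x y := by
  have := reach_ED x y
  rcases Nat.eq_zero_or_pos (ED x y) with h0 | h0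
  · rw [h0] at this; exact absurd this h
  · exact h0

lemma sorted_sub {l : List ℕ} {n : ℕ} (hl : l.Pairwise (· < ·)) (hn : ∀ a ∈ l, a < n) :
    l <+ List.range n := by
  refine List.sublist_of_subperm_of_pairwise (r := (· ≤ ·))
    (List.subperm_of_subset (hl.imp ne_of_lt) fun a ha => List.mem_range.2 (hn a ha))
    (hl.imp le_of_lt) (List.pairwise_lt_range.imp le_of_lt)

/-- upper bound from an order preserving matching -/
lemma ED_match {n : ℕ} (U V : ℕ → Bool) (S : Finset ℕ) (π : ℕ → ℕ) (hS : ∀ j ∈ S, j < n)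
    (hπ : ∀ j ∈ S, π j < n) (hm : StrictMonoOn π S) (hV : ∀ j ∈ S, V (π j) = U j) :
    ED ((List.range n).map U) ((List.range n).map V) ≤ 2 * (n - S.card) := by
  have hs : (S.sort).Pairwise (· < ·) := S.sortedLT_sort.pairwise
  have h1 : (S.sort).map U <+ (List.range n).map U :=
    (sorted_sub hs fun a ha => hS a (by simpa using ha)).map U
  have h2 : ((S.sort).map π).map V <+ (List.range n).map V := by
    refine (sorted_sub ?_ ?_).map V
    · rw [List.pairwise_map]
      refine List.Pairwise.imp_of_mem ?_ hs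
      intro a b ha hb hab
      exact hm (by simpa using ha) (by simpa using hb) hab
    · intro a ha
      obtain ⟨j, hj, rfl⟩ := List.mem_map.1 ha
      exact hπ j (by simpa using hj)
  have h3 : ((S.sort).map π).map V = (S.sort).map U := by
    rw [List.map_map]
    exact List.map_congr_left fun a ha => hV a (by simpa using ha)
  rw [h3] at h2
  have := ED_le h1 h2
  simp only [List.length_map, List.length_range, Finset.length_sort] at this
  omega

def win (K : ℕ) : List Bool → List (List Bool)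
  | [] => []
  | c :: w => (c :: w).take K :: win K w

lemma win_length (K : ℕ) : ∀ w, (win K w).length = w.length
  | [] => rfl
  | c :: w => by simp [win, win_length K w]

lemma win_suffix (K : ℕ) (v : List Bool) : ∀ u : List Bool, win K v <+ win K (u ++ v)
  | [] => Sublist.refl _
  | c :: u => (win_suffix K v u).cons _

lemma win_get (K : ℕ) : ∀ (w : List Bool) (j : ℕ), j < w.length →
    (win K w)[j]? = some ((w.drop j).take K)
  | [], j, h => by simp at h
  | c :: w, 0, _ => by simp [win]
  | c :: w, j + 1, h => by simpa [win] using win_get K w j (by simpa using h)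

lemma win_common (K : ℕ) (v v₁ v₂ : List Bool) (h1 : win K v <+ win K v₁)
    (h2 : win K v <+ win K v₂) (hl : v₁.length ≤ v.length + 1) : ∀ u : List Bool,
    ∃ y, y <+ win K (u ++ v₁) ∧ y <+ win K (u ++ v₂) ∧ (u ++ v₁).length ≤ y.length + (K + 1)
  | [] => ⟨win K v, h1, h2, by simp [win_length]; omega⟩
  | c :: u => by
    by_cases hK : K ≤ (c :: u).length
    · obtain ⟨y, a1, a2, a3⟩ := win_common K v v₁ v₂ h1 h2 hl u
      refine ⟨(c :: u).take K :: y, ?_, ?_, by simp at a3 ⊢; omega⟩
      · rw [← List.take_append_of_le_length (l₂ := v₁) hK]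
        exact a1.cons_cons _
      · rw [← List.take_append_of_le_length (l₂ := v₂) hK]
        exact a2.cons_cons _
    · refine ⟨win K v, h1.trans (win_suffix K _ _), h2.trans (win_suffix K _ _), ?_⟩
      simp [win_length] at hK ⊢
      omega

lemma sub_meet {α : Type*} {y l : List α} (h : y <+ l) : ∀ z, z <+ l →
    ∃ z', z' <+ z ∧ z' <+ y ∧ z.length + y.length ≤ z'.length + l.length := by
  induction h with
  | slnil => intro z hz; exact ⟨[], nil_sublist _, Sublist.refl _, by simpa using hz⟩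
  | @cons l₁ l₂ a h ih =>
    intro z hz
    cases hz with
    | cons _ hz =>
      obtain ⟨z', a1, a2, a3⟩ := ih z hz
      exact ⟨z', a1, a2, by simp; omega⟩
    | cons_cons _ hz =>
      obtain ⟨z', a1, a2, a3⟩ := ih _ hz
      exact ⟨z', a1.cons _, a2, by simp; omega⟩
  | @cons_cons l₁ l₂ a h ih =>
    intro z hz
    cases hz with
    | cons _ hz =>
      obtain ⟨z', a1, a2, a3⟩ := ih z hz
      exact ⟨z', a1, a2.cons _, by simp; omega⟩
    | cons_cons _ hz =>
      obtain ⟨z', a1, a2, a3⟩ := ih _ hz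
      exact ⟨a :: z', a1.cons_cons _, a2.cons_cons _, by simp; omega⟩

lemma Step.win {x y : List Bool} (h : Step x y) (K : ℕ) (z : List (List Bool))
    (hz : z <+ win K x) : ∃ z', z' <+ z ∧ z' <+ win K y ∧ z.length ≤ z'.length + (K + 1) := by
  have : ∃ w, w <+ P238.win K x ∧ w <+ P238.win K y ∧ x.length ≤ w.length + (K + 1) := by
    obtain ⟨u, v, c, c', h⟩ := h
    rcases h with ⟨rfl, rfl⟩ | ⟨rfl, rfl⟩ | ⟨rfl, rfl⟩
    · exact win_common K v v (c :: v) (Sublist.refl _) (win_suffix K v [c]) (by simp) u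
    · exact win_common K v (c :: v) v (win_suffix K v [c]) (Sublist.refl _) (by simp) u
    · exact win_common K v (c :: v) (c' :: v) (win_suffix K v [c]) (win_suffix K v [c'])
        (by simp) u
  obtain ⟨w, a1, a2, a3⟩ := this
  obtain ⟨z', b1, b2, b3⟩ := sub_meet a1 z hz
  rw [win_length] at b3
  exact ⟨z', b1, b2.trans a2, by omega⟩

lemma Reach.win (K : ℕ) : ∀ {k : ℕ} {x y : List Bool}, Reach k x y → ∀ z, z <+ win K x →
    ∃ z', z' <+ z ∧ z' <+ win K y ∧ z.length ≤ z'.length + k * (K + 1)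
  | 0, x, y, h, z, hz => by
    have : x = y := h
    subst this; exact ⟨z, Sublist.refl _, hz, by simp⟩
  | k + 1, x, y, ⟨w, h0, h1⟩, z, hz => by
    obtain ⟨z₁, a1, a2, a3⟩ := h0.win K z hz
    obtain ⟨z₂, b1, b2, b3⟩ := Reach.win K h1 z₁ a2
    exact ⟨z₂, b1.trans a1, b2, by rw [Nat.add_mul]; omega⟩

end Vale.Agent.P238
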