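import Mathlib

namespace Vale.Agent.P238

open Finset MeasureTheory

section
variable {G : Type} [AddCommGroup G] [Fintype G] [DecidableEq G]

lemma parseval (H : G → ℝ) :
    ∑ ψ : AddChar G ℂ, ‖∑ a, (H a : ℂ) * ψ a‖ ^ 2 = Fintype.card G * ∑ a, H a ^ 2 := by
  have h1 : ∀ ψ : AddChar G ℂ, ((‖∑ a, (H a : ℂ) * ψ a‖ ^ 2 : ℝ) : ℂ) =
      ∑ a, ∑ b, (H a : ℂ) * H b * ψ (a - b) := by
    intro ψ
    rw [Complex.ofReal_pow, ← Complex.mul_conj', map_sum, sum_mul_sum]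
    refine sum_congr rfl fun a _ => sum_congr rfl fun b _ => ?_
    rw [map_mul, Complex.conj_ofReal, sub_eq_add_neg, ψ.map_add_eq_mul, AddChar.map_neg_eq_conj]
    ring
  apply Complex.ofReal_injective
  rw [Complex.ofReal_sum, sum_congr rfl fun ψ _ => h1 ψ, sum_comm]
  push_cast
  rw [mul_sum]
  refine sum_congr rfl fun a _ => ?_
  rw [sum_comm]
  simp only [← mul_sum, AddChar.sum_apply_eq_ite, sub_eq_zero]
  simp [sq, mul_comm]

lemma dirichlet (F : G → ℝ) (u : G) :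
    Fintype.card G * ∑ a, (F a - F (a + u)) ^ 2 =
      ∑ ψ : AddChar G ℂ, ‖∑ a, (F a : ℂ) * ψ a‖ ^ 2 * ‖1 - ψ u‖ ^ 2 := by
  rw [← parseval]
  refine sum_congr rfl fun ψ _ => ?_
  have h1 : (∑ a, ((F a - F (a + u) : ℝ) : ℂ) * ψ a) * ψ u =
      -((∑ a, (F a : ℂ) * ψ a) * (1 - ψ u)) := by
    have h2 : ∑ a, (F (a + u) : ℂ) * ψ (a + u) = ∑ a, (F a : ℂ) * ψ a :=
      Fintype.sum_equiv (Equiv.addRight u) _ _ fun a => rfl
    simp only [ψ.map_add_eq_mul, ← mul_assoc, ← sum_mul] at h2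
    simp only [Complex.ofReal_sub, sub_mul, sum_sub_distrib, h2]
    ring
  have h3 := congrArg norm h1
  rw [norm_mul, AddChar.norm_apply, mul_one, norm_neg, norm_mul] at h3
  rw [h3, mul_pow]

lemma poincare_sq {ι : Type} [Fintype ι] (c : ι → ℝ) (u : ι → G)
    (h : ∀ ψ : AddChar G ℂ, 0 ≤ ∑ i, c i * ‖1 - ψ (u i)‖ ^ 2) (F : G → ℝ) :
    0 ≤ ∑ i, c i * ∑ a, (F a - F (a + u i)) ^ 2 := by
  have hG : (0 : ℝ) < Fintype.card G := by exact_mod_cast Fintype.card_pos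
  refine le_of_mul_le_mul_left ?_ hG
  rw [mul_zero, mul_sum]
  simp only [mul_left_comm (Fintype.card G : ℝ), dirichlet]
  simp only [mul_sum]
  rw [sum_comm]
  refine sum_nonneg fun ψ _ => ?_
  simp only [mul_left_comm (c _), ← mul_sum]
  exact mul_nonneg (by positivity) (h ψ)

noncomputable def ind (τ s : ℝ) : ℝ := if τ < s then 1 else 0

lemma ind_eq (s s' : ℝ) : (fun τ => (ind τ s - ind τ s') ^ 2) =
    (Set.Ico (min s s') (max s s')).indicator fun _ => (1 : ℝ) := by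
  funext τ
  unfold ind
  by_cases h1 : τ < s <;> by_cases h2 : τ < s' <;>
    simp [Set.indicator, h1, h2, not_lt.1]

lemma ind_int (s s' : ℝ) : Integrable (fun τ => (ind τ s - ind τ s') ^ 2) ∧
    ∫ τ, (ind τ s - ind τ s') ^ 2 = |s - s'| := by
  rw [ind_eq]
  refine ⟨(integrable_indicator_iff measurableSet_Ico).2 (by simp), ?_⟩
  rw [integral_indicator measurableSet_Ico]
  simp [max_sub_min_eq_abs, abs_sub_comm]

lemma poincare_abs {ι : Type} [Fintype ι] (c : ι → ℝ) (u : ι → G)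
    (h : ∀ ψ : AddChar G ℂ, 0 ≤ ∑ i, c i * ‖1 - ψ (u i)‖ ^ 2) (F : G → ℝ) :
    0 ≤ ∑ i, c i * ∑ a, |F a - F (a + u i)| := by
  have h1 : ∑ i, c i * ∑ a, |F a - F (a + u i)| =
      ∫ τ, ∑ i, c i * ∑ a, (ind τ (F a) - ind τ (F (a + u i))) ^ 2 := by
    rw [integral_finsetSum _ fun i _ =>
      (integrable_finsetSum _ fun a _ => (ind_int _ _).1).const_mul _]
    refine sum_congr rfl fun i _ => ?_
    rw [integral_const_mul, integral_finsetSum _ fun a _ => (ind_int _ _).1]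
    simp only [(ind_int _ _).2]
  rw [h1]
  exact integral_nonneg fun τ => poincare_sq c u h fun a => ind τ (F a)

lemma poincare_l1 {ι : Type} [Fintype ι] (c : ι → ℝ) (u : ι → G)
    (h : ∀ ψ : AddChar G ℂ, 0 ≤ ∑ i, c i * ‖1 - ψ (u i)‖ ^ 2)
    (F : G → lp (fun _ : ℕ => ℝ) 1) :
    0 ≤ ∑ i, c i * ∑ a, ‖F a - F (a + u i)‖ := by
  have h0 : ∀ v : lp (fun _ : ℕ => ℝ) 1, HasSum (fun k => |v k|) ‖v‖ := fun v => by
    simpa using lp.hasSum_norm (p := 1) (by simp) v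
  have h1 : HasSum (fun k => ∑ i, c i * ∑ a, |(F a - F (a + u i)) k|)
      (∑ i, c i * ∑ a, ‖F a - F (a + u i)‖) :=
    hasSum_sum fun i _ => (hasSum_sum fun a _ => h0 _).mul_left _
  exact h1.nonneg fun k => poincare_abs c u h fun a => F a k

end

lemma root_far {z : ℂ} {N : ℕ} (hN : 0 < N) (hz : ‖z‖ = 1) (h1 : z ≠ 1) (h2 : z ^ N = 1) :
    1 ≤ N * ‖1 - z‖ := by
  have h3 : ∑ j ∈ range N, z ^ j = 0 := by
    have := geom_sum_mul z N
    rw [h2, sub_self] at this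
    exact (mul_eq_zero.1 this).resolve_right (sub_ne_zero.2 h1)
  have h4 : ∀ j : ℕ, ‖1 - z ^ j‖ ≤ j * ‖1 - z‖ := by
    intro j
    induction j with
    | zero => simp
    | succ j ih =>
      have : 1 - z ^ (j + 1) = (1 - z) + z * (1 - z ^ j) := by ring
      rw [this]
      refine (norm_add_le _ _).trans ?_
      rw [norm_mul, hz]
      push_cast; linarith
  have h5 : ‖∑ j ∈ range N, (1 - z ^ j)‖ ≤ ∑ j ∈ range N, (N : ℝ) * ‖1 - z‖ :=
    norm_sum_le_of_le _ fun j hj => (h4 j).trans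
      (mul_le_mul_of_nonneg_right (by exact_mod_cast (mem_range.1 hj).le) (norm_nonneg _))
  rw [sum_sub_distrib, h3] at h5
  simp only [sum_const, card_range, nsmul_eq_mul, mul_one, sub_zero, Complex.norm_natCast] at h5
  have hN' : (0 : ℝ) < N := by exact_mod_cast hN
  nlinarith

lemma root_avg {z : ℂ} {N : ℕ} (hz : ‖z‖ = 1) (h1 : z ≠ 1) (h2 : z ^ N = 1) :
    ∑ j ∈ range N, ‖1 - z ^ j‖ ^ 2 = 2 * N := by
  have h3 : ∑ j ∈ range N, z ^ j = 0 := by
    have := geom_sum_mul z N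
    rw [h2, sub_self] at this
    exact (mul_eq_zero.1 this).resolve_right (sub_ne_zero.2 h1)
  have h4 : ∀ w : ℂ, ‖w‖ = 1 → ‖1 - w‖ ^ 2 = 2 - 2 * w.re := by
    intro w hw
    have := Complex.sq_norm w
    rw [hw, Complex.normSq_apply] at this
    rw [Complex.sq_norm, Complex.normSq_apply]
    simp
    linarith
  rw [sum_congr rfl fun j _ => h4 _ (by rw [norm_pow, hz, one_pow]), sum_sub_distrib, ← mul_sum,
    ← Complex.re_sum, h3]
  simp [mul_comm]

end Vale.Agent.P238
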