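import Vale.Agent.P238.Str

namespace Vale.Agent.P238

open Finset

lemma rho_pos {n : ℕ} {x y : Fin n → Bool} (h : x ≠ y) : 0 < rho x y := by
  unfold rho
  exact_mod_cast ED_pos fun e => h (List.ofFn_injective e)

lemma lip_con {n : ℕ} (f : (Fin n → Bool) → lp (fun _ : ℕ => ℝ) 1) (hf : Function.Injective f) :
    ∃ A C : ℝ, 0 ≤ A ∧ 0 ≤ C ∧ distortion f = A * C ∧ (∀ x y, ‖f x - f y‖ ≤ A * rho x y) ∧
      ∀ x y, rho x y ≤ C * ‖f x - f y‖ := by
  have h0 : ∀ x y : Fin n → Bool, 0 ≤ rho x y := fun x y => Nat.cast_nonneg _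
  refine ⟨_, _, Real.iSup_nonneg fun p => div_nonneg (norm_nonneg _) (h0 _ _),
    Real.iSup_nonneg fun p => div_nonneg (h0 _ _) (norm_nonneg _), rfl, fun x y => ?_,
    fun x y => ?_⟩
  · by_cases h : x = y
    · rw [h, sub_self, norm_zero]
      exact mul_nonneg (Real.iSup_nonneg fun p => div_nonneg (norm_nonneg _) (h0 _ _)) (h0 _ _)
    · rw [← div_le_iff₀ (rho_pos h)]
      exact le_ciSup (f := fun p : {p : (Fin n → Bool) × (Fin n → Bool) // p.1 ≠ p.2} =>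
        ‖f p.1.1 - f p.1.2‖ / rho p.1.1 p.1.2) (Set.finite_range _).bddAbove ⟨(x, y), h⟩
  · by_cases h : x = y
    · have : rho x y = 0 := by
        rw [h, rho, Nat.cast_eq_zero]
        exact Nat.eq_zero_of_le_zero (Nat.sInf_le (show Reach 0 _ _ from rfl))
      rw [this, h, sub_self, norm_zero, mul_zero]
    · rw [← div_le_iff₀ (norm_pos_iff.2 (sub_ne_zero.2 (hf.ne h)))]
      exact le_ciSup (f := fun p : {p : (Fin n → Bool) × (Fin n → Bool) // p.1 ≠ p.2} =>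
        rho p.1.1 p.1.2 / ‖f p.1.1 - f p.1.2‖) (Set.finite_range _).bddAbove ⟨(x, y), h⟩

lemma Par.distort (P : Par) (ht : 0 < P.t) {D κ n : ℕ} (hκ0 : 0 < κ) (hD : P.b ≤ 2 ^ D)
    (hd : 4 * P.t * D ≤ P.d) (hκ : P.d ^ P.t * (2 * P.q ^ P.t) ≤ 2 ^ κ)
    (hb : 4 * (2 * P.q ^ (2 * P.t)) ^ 2 * P.t * P.t ^ P.t ≤ P.b)
    (hn : P.B ^ P.t * (2 * κ + 2) ≤ n) (f : (Fin n → Bool) → lp (fun _ : ℕ => ℝ) 1)
    (hf : Function.Injective f) :
    (P.t : ℝ) ^ P.t ≤ 12 * (2 * κ + 3) ^ 2 * distortion f := by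
  obtain ⟨A, C, hA, hC, e, h1, h2⟩ := lip_con f hf
  have hw := fun a => word_ge hκ0 hn (P.X a) (P.X (a + P.ind P.t 0 (P.PI P.t 0)))
      (fun j _ => (P.X_lt _ _).trans_le hκ) (fun j _ => (P.X_lt _ _).trans_le hκ)
      (P.lcs_le hD hd a)
  obtain ⟨K, hK⟩ : ∃ K, K = 2 * κ + 2 := ⟨_, rfl⟩
  rw [← hK] at hw hn
  have hK0 : 0 < K := by omega
  have hsh := fun (y : Fin P.t × P.L) a => P.ED_shift hK0 hn a y.1.2 y.2
  have hlf := fun (y : (l : P.L) × Fin (P.Q l)) a => P.ED_leaf hK0 hn a y.1 y.2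
  have hcb := fun k : Fin P.t => P.card_bad k.2
  have hm0 : (0 : ℝ) < (P.B ^ P.t : ℕ) := by exact_mod_cast pow_pos P.B_pos _
  generalize P.B ^ P.t = m at hw hn hsh hlf hcb hm0
  obtain ⟨x, hx⟩ : ∃ x : P.G → Fin n → Bool, x = fun a (j : Fin n) => bitf K m (P.X a) j :=
    ⟨_, rfl⟩
  have hr : ∀ a a', rho (x a) (x a') = ED (word n K m (P.X a)) (word n K m (P.X a')) := by
    have : ∀ a, List.ofFn (x a) = word n K m (P.X a) := fun a =>
      List.ext_getElem (by simp [word]) fun i _ _ => by simp [word, hx]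
    intro a a'
    rw [rho, this, this]
  obtain ⟨M, hM⟩ : ∃ M : ℝ, M = ((2 * P.q ^ (2 * P.t) : ℕ) : ℝ) := ⟨_, rfl⟩
  have a1 := poincare_l1 (ι := Unit ⊕ (Fin P.t × P.L) ⊕ ((l : P.L) × Fin (P.Q l)))
    (Sum.elim (fun _ => -1) (Sum.elim (fun _ => 4 * M ^ 2)
      fun y => 2 / (P.t : ℝ) ^ P.t / P.Q y.1))
    (Sum.elim (fun _ => P.ind P.t 0 (P.PI P.t 0)) (Sum.elim
      (fun y => P.ind (y.1 + 1) y.2 (P.PI y.1 0)) fun y => P.ind 0 y.1 y.2))
    (fun ψ => by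
      have := P.char_ineq ht ψ
      rw [← hM] at this
      simp only [Fintype.sum_sum_type, Sum.elim_inl, Sum.elim_inr, Fintype.sum_unique]
      linarith) fun a => f (x a)
  simp only [Fintype.sum_sum_type, Sum.elim_inl, Sum.elim_inr, Fintype.sum_unique] at a1
  obtain ⟨g, hg⟩ : ∃ g : ℝ, g = (Fintype.card P.G : ℝ) := ⟨_, rfl⟩
  have hg0 : 0 < g := by rw [hg]; exact_mod_cast Fintype.card_pos
  have hT : (0 : ℝ) < (P.t : ℝ) ^ P.t := by positivity
  have b1 : g * m ≤ 2 * (2 * κ + 3) * C *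
      ∑ a, ‖f (x a) - f (x (a + P.ind P.t 0 (P.PI P.t 0)))‖ := by
    rw [mul_sum, hg, ← nsmul_eq_mul, ← card_univ]
    refine card_nsmul_le_sum _ _ _ fun a _ => ?_
    have c1 := hw a
    have c2 := h2 (x a) (x (a + P.ind P.t 0 (P.PI P.t 0)))
    rw [hr] at c2
    have c3 : (m : ℝ) ≤ 2 * (2 * κ + 3) * (ED (word n K m (P.X a))
      (word n K m (P.X (a + P.ind P.t 0 (P.PI P.t 0)))) : ℝ) := by exact_mod_cast c1
    rw [mul_assoc _ C]
    exact c3.trans (mul_le_mul_of_nonneg_left c2 (by positivity))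
  have up : ∀ (u : P.G) (c : ℕ), (∀ a, ED (word n K m (P.X (a + u))) (word n K m (P.X a)) ≤
      2 * K * c) → ∑ a, ‖f (x a) - f (x (a + u))‖ ≤ g * A * (2 * K) * c := by
    intro u c h
    rw [mul_assoc, mul_assoc, hg, ← nsmul_eq_mul, ← card_univ]
    refine sum_le_card_nsmul _ _ _ fun a _ => ?_
    rw [norm_sub_rev]
    refine (h1 _ _).trans (mul_le_mul_of_nonneg_left ?_ hA)
    rw [hr]
    exact_mod_cast h a
  obtain ⟨W, hW⟩ : ∃ W : ℝ, W = g * A * (2 * K) := ⟨_, rfl⟩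
  have hW0 : 0 ≤ W := by rw [hW]; positivity
  rw [← hW] at up
  have b2 : ∑ y : Fin P.t × P.L, 4 * M ^ 2 *
      ∑ a, ‖f (x a) - f (x (a + P.ind (y.1 + 1) y.2 (P.PI y.1 0)))‖ ≤ W * m / (P.t : ℝ) ^ P.t := by
    refine (sum_le_sum fun y _ => mul_le_mul_of_nonneg_left (up _ _ (hsh y)) (by positivity)).trans ?_
    have hb0 : (0 : ℝ) < P.b := by exact_mod_cast P.hb
    have c1 : ∀ k : Fin P.t, ∑ l : P.L, (((range m).filter fun j =>
        (¬ j / P.B ^ k.1 / P.d % P.b + 1 < P.b) ∧ P.leaf P.t j / P.d ^ (k.1 + 1) = l).card : ℝ) ≤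
        m / P.b := by
      intro k
      have d1 : (((range m).filter fun j => ¬ j / P.B ^ k.1 / P.d % P.b + 1 < P.b).card : ℝ) * P.b
        ≤ m := by exact_mod_cast hcb k
      refine le_trans ?_ ((le_div_iff₀ hb0).2 d1)
      rw [← Nat.cast_sum, Nat.cast_le, ← card_biUnion]
      · exact card_le_card (biUnion_subset.2 fun l _ => monotone_filter_right _ fun j _ h => h.1)
      · intro l _ l' _ hne
        exact disjoint_filter.2 fun j _ h h' => hne (Fin.ext (h.2.symm.trans h'.2))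
    simp only [← mul_sum, Fintype.sum_prod_type]
    have c2 := (sum_le_card_nsmul univ _ _ fun k _ => c1 k)
    rw [card_univ, Fintype.card_fin, nsmul_eq_mul] at c2
    have c3 : 4 * M ^ 2 * P.t * (P.t : ℝ) ^ P.t ≤ P.b := by rw [hM]; exact_mod_cast hb
    refine (mul_le_mul_of_nonneg_left (mul_le_mul_of_nonneg_left c2 hW0) (by positivity)).trans ?_
    rw [le_div_iff₀ hT]
    calc _ = W * m * (4 * M ^ 2 * P.t * (P.t : ℝ) ^ P.t / P.b) := by ring
      _ ≤ W * m * 1 := mul_le_mul_of_nonneg_left ((div_le_one hb0).2 c3) (by positivity)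
      _ = _ := mul_one _
  have b3 : ∑ y : (l : P.L) × Fin (P.Q l), 2 / (P.t : ℝ) ^ P.t / P.Q y.1 *
      ∑ a, ‖f (x a) - f (x (a + P.ind 0 y.1 y.2))‖ ≤ 2 * (W * m / (P.t : ℝ) ^ P.t) := by
    refine (sum_le_sum fun y _ => mul_le_mul_of_nonneg_left (up _ _ (hlf y)) (by positivity)).trans (le_of_eq ?_)
    have c1 : (m : ℝ) = ∑ l : P.L, (((range m).filter fun j => P.lf j = l).card : ℝ) := by
      rw [← Nat.cast_sum, ← card_eq_sum_card_fiberwise (f := P.lf) (fun _ _ => mem_univ _),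
        card_range]
    rw [Fintype.sum_sigma, c1, mul_sum, sum_div, mul_sum]
    refine sum_congr rfl fun l _ => ?_
    have b6 : (0 : ℝ) < P.Q l := by exact_mod_cast P.N_pos _ _ _
    simp only [sum_const, card_univ, Fintype.card_fin, nsmul_eq_mul]
    field_simp
  have b4 : g * m ≤ 2 * (2 * κ + 3) * C * (3 * (W * m / (P.t : ℝ) ^ P.t)) :=
    b1.trans (mul_le_mul_of_nonneg_left (by linarith) (by positivity))
  have b5 : g * m * (P.t : ℝ) ^ P.t ≤ g * m * (12 * (2 * κ + 3) * K * (A * C)) := by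
    rw [← le_div_iff₀ hT]
    refine b4.trans (le_of_eq ?_)
    rw [hW]; ring
  have b6 := le_of_mul_le_mul_left b5 (by positivity)
  rw [e]
  refine b6.trans (mul_le_mul_of_nonneg_right ?_ (by positivity))
  rw [hK]; push_cast
  have : (0 : ℝ) ≤ κ := by positivity
  nlinarith

lemma nth_le {s k : ℕ} (hs : 16 ≤ s) (hk : 8 * (k + 1) ≤ s) : Nat.nth Nat.Prime k ≤ s ^ 2 := by
  have h1 := Chebyshev.pi_ge (s ^ 2)
  have hs' : (16 : ℝ) ≤ s := by exact_mod_cast hs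
  have hk' : 8 * ((k : ℝ) + 1) ≤ s := by exact_mod_cast hk
  have l1 : Real.log (s : ℝ) ≤ s := (Real.log_le_sub_one_of_pos (by linarith)).trans (by linarith)
  have l0 : 0 < Real.log (s : ℝ) := Real.log_pos (by linarith)
  have l2 : Real.log ((s : ℝ) ^ 2 + 1) ≤ 2 * s := by
    have : Real.log ((s : ℝ) ^ 2 + 1) ≤ Real.log ((s + 1) ^ 2) :=
      Real.log_le_log (by positivity) (by nlinarith)
    rw [Real.log_pow] at this
    have := Real.log_le_sub_one_of_pos (show (0 : ℝ) < s + 1 by linarith)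
    push_cast at *
    linarith
  have l3 := Real.log_two_gt_d9
  push_cast at h1
  rw [Real.log_pow, div_le_iff₀ (by positivity)] at h1
  have h2 : (k : ℝ) < Nat.primeCounting (s ^ 2) := by
    by_contra h
    have := mul_le_mul (not_lt.1 h) l1 l0.le (by positivity)
    push_cast at h1
    nlinarith
  have h3 : k < Nat.count Nat.Prime (s ^ 2 + 1) := by exact_mod_cast h2
  exact Nat.le_of_lt_succ (Nat.nth_lt_of_lt_count h3)

noncomputable def par (t : ℕ) (ht : 2000 ≤ t) : Par where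
  t := t
  d := t ^ 4
  b := t ^ (50 * t)
  q := t ^ 12
  p := fun k i => Nat.nth Nat.Prime (k * t ^ 4 + i + 1)
  hd := by positivity
  hb := by positivity
  hq0 := by positivity
  hp := fun _ _ => Nat.prime_nth_prime _
  h2 := fun k i => by have := Nat.add_two_le_nth_prime (k * t ^ 4 + i + 1); omega
  hinj := fun k k' i i' hi hi' h => by
    have h1 := Nat.nth_injective Nat.infinite_setOfPred_prime h
    have h2 : i + k * t ^ 4 = i' + k' * t ^ 4 := by omega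
    have h3 := congrArg (· / t ^ 4) h2
    have h4 := congrArg (· % t ^ 4) h2
    have h5 : 0 < t ^ 4 := by positivity
    simp only [Nat.add_mul_div_right _ _ h5, Nat.add_mul_mod_self_right, Nat.div_eq_of_lt hi,
      Nat.div_eq_of_lt hi', Nat.mod_eq_of_lt hi, Nat.mod_eq_of_lt hi', zero_add] at h3 h4
    exact ⟨h3, h4⟩
  hq := fun k hk i hi => by
    have h1 : (k + 1) * t ^ 4 ≤ t * t ^ 4 := Nat.mul_le_mul_right _ hk
    have h2 : 2000 * (t * t ^ 4) ≤ t * (t * t ^ 4) := Nat.mul_le_mul_right _ ht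
    have h3 : t ^ 6 = t * (t * t ^ 4) := by ring
    rw [show t ^ 12 = (t ^ 6) ^ 2 by ring]
    rw [Nat.add_mul] at h1
    exact nth_le (by omega) (by omega)

lemma bound {t n : ℕ} (ht : 2000 ≤ t) (hn : t ^ (52 * t ^ 2) ≤ n) : (t : ℝ) ^ (t - 7) ≤ c1 n := by
  have : Nonempty {f : (Fin n → Bool) → lp (fun _ : ℕ => ℝ) 1 // Function.Injective f} := by
    refine ⟨⟨fun x => lp.single 1 0 (Fintype.equivFin _ x : ℝ), fun x y h => ?_⟩⟩
    have := congrArg (fun v : lp (fun _ : ℕ => ℝ) 1 => v 0) h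
    simp only [lp.single_apply_self, Nat.cast_inj] at this
    exact (Fintype.equivFin _).injective (Fin.ext this)
  refine le_ciInf fun f => ?_
  have p2 : t ≤ 2 ^ t := Nat.lt_two_pow_self.le
  have pw : ∀ a b, a ≤ b → t ^ a ≤ t ^ b := fun a b h => Nat.pow_le_pow_right (by omega) h
  have t2 : 2000 * t ≤ t ^ 2 := by nlinarith
  have t3 : 2000 * t ^ 2 ≤ t ^ 3 := by nlinarith
  have h := (par t ht).distort (show 0 < t by omega) (D := 50 * t ^ 2) (κ := 17 * t ^ 2) (n := n)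
    (by omega) ?_ ?_ ?_ ?_ ?_ f.1 f.2
  · have a1 : (t : ℝ) ^ t = (t : ℝ) ^ 7 * t ^ (t - 7) := by rw [← pow_add]; congr 1; omega
    have a2 : 12 * (2 * (17 * t ^ 2) + 3) ^ 2 ≤ t ^ 7 := by
      have : (2 * (17 * t ^ 2) + 3) ^ 2 ≤ (t ^ 3) ^ 2 := Nat.pow_le_pow_left (by omega) 2
      have : 12 * (t ^ 3) ^ 2 ≤ t * (t ^ 3) ^ 2 := Nat.mul_le_mul_right _ (by omega)
      have : t ^ 7 = t * (t ^ 3) ^ 2 := by ring
      omega
    have a3 : 12 * (2 * ((17 * t ^ 2 : ℕ) : ℝ) + 3) ^ 2 ≤ (t : ℝ) ^ 7 := by exact_mod_cast a2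
    have a4 : 0 ≤ distortion f.1 := by
      obtain ⟨A, C, hA, hC, e, -⟩ := lip_con f.1 f.2
      rw [e]; positivity
    have a5 : (0 : ℝ) < (t : ℝ) ^ 7 := by have : 0 < t := by omega
                                          positivity
    change (t : ℝ) ^ t ≤ _ at h
    rw [a1] at h
    exact le_of_mul_le_mul_left (h.trans (mul_le_mul_of_nonneg_right a3 a4)) a5
  · change t ^ (50 * t) ≤ _
    refine (Nat.pow_le_pow_left p2 _).trans (le_of_eq ?_)
    rw [← pow_mul]; congr 1; ring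
  · change 4 * t * (50 * t ^ 2) ≤ t ^ 4
    nlinarith
  · change (t ^ 4) ^ t * (2 * (t ^ 12) ^ t) ≤ _
    calc _ ≤ (t ^ 4) ^ t * (t * (t ^ 12) ^ t) := by gcongr; omega
      _ = t ^ (16 * t + 1) := by ring
      _ ≤ t ^ (17 * t) := pw _ _ (by omega)
      _ ≤ (2 ^ t) ^ (17 * t) := Nat.pow_le_pow_left p2 _
      _ = _ := by rw [← pow_mul]; congr 1; ring
  · change 4 * (2 * (t ^ 12) ^ (2 * t)) ^ 2 * t * t ^ t ≤ t ^ (50 * t)
    calc _ = 16 * t ^ (49 * t + 1) := by ring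
      _ ≤ t * t ^ (49 * t + 1) := by gcongr; omega
      _ = t ^ (49 * t + 2) := by ring
      _ ≤ _ := pw _ _ (by omega)
  · change (t ^ 4 * t ^ (50 * t)) ^ t * _ ≤ n
    calc _ ≤ (t ^ 4 * t ^ (50 * t)) ^ t * t ^ 3 := by gcongr; omega
      _ = t ^ (50 * t ^ 2 + 4 * t + 3) := by ring
      _ ≤ t ^ (52 * t ^ 2) := pw _ _ (by omega)
      _ ≤ n := hn

lemma asym {t : ℕ} {n : ℝ} (h2 : 2000 ≤ t) (hn1 : (t : ℝ) ≤ n)
    (a2 : Real.log n ≤ 52 * (t + 1) ^ 2 * Real.log (t + 1)) :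
    Real.exp (1 / 82 * √(Real.log n * Real.log (Real.log n))) ≤ (t : ℝ) ^ (t - 7) := by
  have hT : (2000 : ℝ) ≤ t := by exact_mod_cast h2
  have hT0 : (0 : ℝ) < t := by linarith
  have l0 : 0 < Real.log t := Real.log_pos (by linarith)
  have l1 : Real.log t ≤ t := (Real.log_le_sub_one_of_pos (by linarith)).trans (by linarith)
  have l2 : Real.log ((t : ℝ) + 1) ≤ 2 * Real.log t := by
    have := Real.log_le_log (show (0 : ℝ) < t + 1 by linarith) (show (t : ℝ) + 1 ≤ t ^ 2 by nlinarith)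
    rwa [Real.log_pow] at this
  have l3 : 0 < Real.log n := Real.log_pos (by linarith)
  have l4 : Real.log n ≤ 416 * t ^ 2 * Real.log t := by
    have a3 : ((t : ℝ) + 1) ^ 2 ≤ 4 * t ^ 2 := by nlinarith
    have a4 := mul_le_mul a3 l2 (Real.log_nonneg (by linarith)) (by positivity)
    linarith
  have l5 : Real.log (Real.log n) ≤ 4 * Real.log t := by
    have a1 : Real.log n ≤ (t : ℝ) ^ 4 := by
      have : 416 * (t : ℝ) ^ 2 * Real.log t ≤ t * t ^ 2 * t := by gcongr; linarith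
      linarith [show (t : ℝ) * t ^ 2 * t = t ^ 4 by ring]
    have := Real.log_le_log l3 a1
    rwa [Real.log_pow] at this
  have l6 : √(Real.log n * Real.log (Real.log n)) ≤ 41 * t * Real.log t := by
    refine Real.sqrt_le_iff.2 ⟨by positivity, ?_⟩
    have a1 := mul_le_mul_of_nonneg_left l5 l3.le
    have a2 := mul_le_mul_of_nonneg_right l4 (show 0 ≤ 4 * Real.log t by positivity)
    nlinarith [sq_nonneg (t * Real.log t)]
  rw [← Real.exp_log (show (0 : ℝ) < (t : ℝ) ^ (t - 7) by positivity), Real.exp_le_exp,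
    Real.log_pow, Nat.cast_sub (by omega)]
  push_cast
  nlinarith

theorem final (s : ℕ) (hs : 2000 ≤ s) (n : ℕ) (hn : s ^ (52 * s ^ 2) ≤ n) :
    Real.exp (1 / 82 * √(Real.log n * Real.log (Real.log n))) ≤ c1 n := by
  have ne : ∀ t : ℕ, 0 < t → 52 * t ^ 2 ≠ 0 := fun t ht => by positivity
  have hex : ∃ t : ℕ, n < (t + 1) ^ (52 * (t + 1) ^ 2) :=
    ⟨n, lt_of_lt_of_le (Nat.lt_succ_self n) (Nat.le_self_pow (ne _ (Nat.succ_pos n)) _)⟩
  classical
  obtain ⟨t, ht⟩ : ∃ t, t = Nat.find hex := ⟨_, rfl⟩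
  have h1 : n < (t + 1) ^ (52 * (t + 1) ^ 2) := ht ▸ Nat.find_spec hex
  have h2 : 2000 ≤ t := by
    by_contra h
    have a1 : t + 1 ≤ s := (Nat.succ_le_of_lt (not_le.1 h)).trans hs
    have a2 : (t + 1) ^ (52 * (t + 1) ^ 2) ≤ s ^ (52 * s ^ 2) :=
      (Nat.pow_le_pow_left a1 _).trans (Nat.pow_le_pow_right ((Nat.succ_pos t).trans_le a1)
        (Nat.mul_le_mul_left _ (Nat.pow_le_pow_left a1 _)))
    exact absurd (h1.trans_le (a2.trans hn)) (lt_irrefl _)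
  have h0 : 0 < t := lt_of_lt_of_le (by norm_num) h2
  have h3 : t ^ (52 * t ^ 2) ≤ n := by
    have := Nat.find_min hex (m := t - 1) (ht ▸ Nat.sub_one_lt h0.ne')
    rw [Nat.sub_add_cancel h0] at this
    exact not_lt.1 this
  have a2 : t ≤ n := (Nat.le_self_pow (ne t h0) t).trans h3
  refine le_trans (asym h2 (by exact_mod_cast a2) ?_) (bound h2 h3)
  have a1 : (n : ℝ) ≤ ((t : ℝ) + 1) ^ (52 * (t + 1) ^ 2) := by exact_mod_cast h1.le
  have a3 := Real.log_le_log (Nat.cast_pos.2 (h0.trans_le a2)) a1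
  rw [Real.log_pow] at a3
  exact_mod_cast a3

theorem final' (s : ℕ) (hs : 2000 ≤ s) : ∃ N : ℕ, ∀ n : ℕ, N ≤ n →
    Real.exp (1 / 82 * √(Real.log n * Real.log (Real.log n))) ≤ c1 n :=
  ⟨_, final s hs⟩

end Vale.Agent.P238
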