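import Vale.Agent.P238.Tree
import Vale.Agent.P238.Code

namespace Vale.Agent.P238

open Finset

namespace Par
variable (P : Par)

def B : ℕ := P.d * P.b

lemma B_pos : 0 < P.B := Nat.mul_pos P.hd P.hb

def leaf : ℕ → ℕ → ℕ
  | 0, _ => 0
  | s + 1, j => j % P.d + P.d * leaf s (j / P.B)

def ph : ℕ → ℕ → ℕ → ℕ
  | 0, _, _ => 0
  | s + 1, k, j => j / P.d % P.b + P.PP k * ph s (k + 1) (j / P.B)

lemma leaf_lt : ∀ s j, P.leaf s j < P.d ^ s
  | 0, _ => by simp [leaf]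
  | s + 1, j => by
    have h1 := Nat.mul_le_mul_left P.d (Nat.succ_le_of_lt (leaf_lt s (j / P.B)))
    have h2 := Nat.mod_lt j P.hd
    rw [leaf, pow_succ, mul_comm _ P.d]
    rw [Nat.mul_succ] at h1; omega

lemma leaf_mod (s j : ℕ) : P.leaf (s + 1) j % P.d = j % P.d := by
  rw [leaf, Nat.add_mul_mod_self_left, Nat.mod_mod]

lemma leaf_div (s j : ℕ) : P.leaf (s + 1) j / P.d = P.leaf s (j / P.B) := by
  rw [leaf, Nat.add_mul_div_left _ _ P.hd, Nat.div_eq_of_lt (Nat.mod_lt _ P.hd), zero_add]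

lemma leaf_div_pow (s : ℕ) : ∀ k j, P.leaf (s + k) j / P.d ^ k = P.leaf s (j / P.B ^ k)
  | 0, j => by simp
  | k + 1, j => by
    rw [pow_succ', ← Nat.div_div_eq_div_mul, ← add_assoc, leaf_div, leaf_div_pow s k,
      Nat.div_div_eq_div_mul, pow_succ']

lemma shift : ∀ k s k₀ j, k < s → j / P.B ^ k / P.d % P.b + 1 < P.b →
    P.leaf s (j + P.B ^ k * P.d) = P.leaf s j ∧
      P.ph s k₀ (j + P.B ^ k * P.d) = P.ph s k₀ j + P.PI k k₀ ∧
      (j + P.B ^ k * P.d) / P.B ^ (k + 1) = j / P.B ^ (k + 1)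
  | _, 0, _, _, h, _ => absurd h (by omega)
  | 0, s + 1, k₀, j, _, h => by
    rw [pow_zero, Nat.div_one] at h
    have h1 : (j + P.d) / P.d = j / P.d + 1 := Nat.add_div_right _ P.hd
    have h0 := Nat.div_add_mod' (j / P.d) P.b
    have h2 : j / P.d + 1 = (j / P.d % P.b + 1) + j / P.d / P.b * P.b := by omega
    have h3 : (j + P.d) / P.B = j / P.B := by
      rw [B, ← Nat.div_div_eq_div_mul, ← Nat.div_div_eq_div_mul, h1, h2,
        Nat.add_mul_div_right _ _ P.hb, Nat.div_eq_of_lt h, zero_add]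
    have h4 : (j + P.d) / P.d % P.b = j / P.d % P.b + 1 := by
      rw [h1, h2, Nat.add_mul_mod_self_right, Nat.mod_eq_of_lt h]
    simp only [pow_zero, one_mul, zero_add, pow_one, leaf, ph, h3, h4, Nat.add_mod_right, PI,
      range_zero, prod_empty, true_and, and_true]
    omega
  | k + 1, s + 1, k₀, j, hk, h => by
    rw [pow_succ', ← Nat.div_div_eq_div_mul] at h
    obtain ⟨a1, a2, a3⟩ := shift k s (k₀ + 1) (j / P.B) (by omega) h
    have h1 : (j + P.B ^ (k + 1) * P.d) / P.B = j / P.B + P.B ^ k * P.d := by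
      rw [pow_succ', mul_assoc, Nat.add_mul_div_left _ _ P.B_pos]
    have h2 : (j + P.B ^ (k + 1) * P.d) / P.d % P.b = j / P.d % P.b := by
      rw [Nat.add_mul_div_right _ _ P.hd, pow_succ, B, ← mul_assoc, Nat.add_mul_mod_self_right]
    refine ⟨?_, ?_, ?_⟩
    · rw [leaf, leaf, h1, a1, Nat.add_mul_mod_self_right]
    · rw [ph, ph, h1, a2, h2, PI_succ']; ring
    · rw [pow_succ' _ (k + 1), ← Nat.div_div_eq_div_mul, h1, a3, Nat.div_div_eq_div_mul]

def lf (j : ℕ) : P.L := ⟨P.leaf P.t j, P.leaf_lt _ _⟩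

def X (a : P.G) (j : ℕ) : ℕ :=
  P.leaf P.t j * (2 * P.q ^ P.t) + (a (P.lf j) + (P.ph P.t 0 j : ℕ)).val

lemma val_lt {l : P.L} (x : ZMod (P.Q l)) : x.val < 2 * P.q ^ P.t :=
  (ZMod.val_lt x).trans_le (P.N_le _ _ _ (by omega))

lemma X_lt (a : P.G) (j : ℕ) : P.X a j < P.d ^ P.t * (2 * P.q ^ P.t) := by
  have h1 := Nat.mul_le_mul_right (2 * P.q ^ P.t) (Nat.succ_le_of_lt (P.leaf_lt P.t j))
  have h2 := P.val_lt (a (P.lf j) + ((P.ph P.t 0 j : ℕ) : ZMod (P.Q (P.lf j))))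
  rw [Nat.succ_mul] at h1
  unfold X; omega

lemma X_eq {a a' : P.G} {j j' : ℕ} (h : P.lf j = P.lf j')
    (h' : a (P.lf j') + (P.ph P.t 0 j : ℕ) = a' (P.lf j') + (P.ph P.t 0 j' : ℕ)) :
    P.X a j = P.X a' j' := by
  have h1 : P.leaf P.t j = P.leaf P.t j' := congrArg Fin.val h
  unfold X
  rw [h1, h, h']

lemma card_bad {k : ℕ} (hk : k < P.t) :
    ((range (P.B ^ P.t)).filter fun j => ¬ j / P.B ^ k / P.d % P.b + 1 < P.b).card * P.b ≤
      P.B ^ P.t := by
  obtain ⟨s, hs⟩ : ∃ s, P.t = s + (k + 1) := ⟨P.t - (k + 1), by omega⟩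
  have hE : 0 < P.B ^ k * P.d := Nat.mul_pos (pow_pos P.B_pos _) P.hd
  have e : P.B ^ P.t = P.B ^ s * P.b * (P.B ^ k * P.d) := by rw [hs, pow_add, pow_succ, B]; ring
  have := card_le_card_of_injOn (s := (range (P.B ^ P.t)).filter
      fun j => ¬ j / P.B ^ k / P.d % P.b + 1 < P.b) (t := range (P.B ^ s) ×ˢ range (P.B ^ k * P.d))
    (fun j => (j / (P.B ^ k * P.d) / P.b, j % (P.B ^ k * P.d))) (fun j hj => ?_)
    (fun j hj j' hj' h => ?_)
  · rw [card_product, card_range, card_range] at this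
    exact (Nat.mul_le_mul_right _ this).trans (le_of_eq (by rw [e, mul_right_comm]))
  · simp only [coe_filter, mem_range, Set.mem_ofPred_eq] at hj
    simp only [coe_product, coe_range, Set.mem_prod, Set.mem_Iio]
    refine ⟨?_, Nat.mod_lt _ hE⟩
    rw [Nat.div_lt_iff_lt_mul P.hb, Nat.div_lt_iff_lt_mul hE, ← e]
    exact hj.1
  · simp only [coe_filter, mem_range, Set.mem_ofPred_eq, Nat.div_div_eq_div_mul] at hj hj'
    simp only [Prod.mk.injEq] at h
    have a1 := Nat.div_add_mod' (j / (P.B ^ k * P.d)) P.b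
    have a2 := Nat.div_add_mod' (j' / (P.B ^ k * P.d)) P.b
    have a3 := Nat.mod_lt (j / (P.B ^ k * P.d)) P.hb
    have a4 := Nat.mod_lt (j' / (P.B ^ k * P.d)) P.hb
    have a5 : j / (P.B ^ k * P.d) = j' / (P.B ^ k * P.d) := by rw [h.1] at a1; omega
    rw [← Nat.div_add_mod' j (P.B ^ k * P.d), a5, h.2, Nat.div_add_mod']

lemma ED_shift {n K : ℕ} (hK : 0 < K) (hn : P.B ^ P.t * K ≤ n) (a : P.G) {k : ℕ} (hk : k < P.t)
    (ν : ℕ) : ED (word n K (P.B ^ P.t) (P.X (a + P.ind (k + 1) ν (P.PI k 0))))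
      (word n K (P.B ^ P.t) (P.X a)) ≤ 2 * K * ((range (P.B ^ P.t)).filter fun j =>
        (¬ j / P.B ^ k / P.d % P.b + 1 < P.b) ∧ P.leaf P.t j / P.d ^ (k + 1) = ν).card := by
  obtain ⟨s, hs⟩ : ∃ s, P.t = s + (k + 1) := ⟨P.t - (k + 1), by omega⟩
  set S := (range (P.B ^ P.t)).filter fun j =>
    ¬ ((¬ j / P.B ^ k / P.d % P.b + 1 < P.b) ∧ P.leaf P.t j / P.d ^ (k + 1) = ν) with hS
  set π : ℕ → ℕ := fun j => if P.leaf P.t j / P.d ^ (k + 1) = ν then j + P.B ^ k * P.d else j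
    with hπ
  have hg : ∀ j ∈ S, P.leaf P.t j / P.d ^ (k + 1) = ν → j / P.B ^ k / P.d % P.b + 1 < P.b :=
    fun j hj h => by
      by_contra e; exact (mem_filter.1 hj).2 ⟨e, h⟩
  have hb : ∀ j ∈ S, π j / P.B ^ (k + 1) = j / P.B ^ (k + 1) := fun j hj => by
    simp only [hπ]
    split_ifs with h
    · exact (P.shift k P.t 0 j hk (hg j hj h)).2.2
    · rfl
  have hB : 0 < P.B ^ (k + 1) := pow_pos P.B_pos _
  have := word_le hK hn (P.X (a + P.ind (k + 1) ν (P.PI k 0))) (P.X a) S π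
    (fun j hj => mem_range.1 (mem_filter.1 hj).1) (fun j hj => ?_) (fun j hj j' hj' h => ?_)
    (fun j hj => ?_)
  · refine this.trans (le_of_eq ?_)
    congr 1
    have := card_filter_add_card_filter_not (s := range (P.B ^ P.t)) fun j =>
      (¬ j / P.B ^ k / P.d % P.b + 1 < P.b) ∧ P.leaf P.t j / P.d ^ (k + 1) = ν
    rw [card_range, ← hS] at this
    omega
  · have h1 := mem_range.1 (mem_filter.1 hj).1
    rw [hs, pow_add, ← Nat.div_lt_iff_lt_mul hB] at h1 ⊢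
    rwa [hb j hj]
  · rcases (Nat.div_le_div_right (c := P.B ^ (k + 1)) h.le).eq_or_lt with e | e
    · have : P.leaf P.t j / P.d ^ (k + 1) = P.leaf P.t j' / P.d ^ (k + 1) := by
        rw [hs, leaf_div_pow, leaf_div_pow, e]
      simp only [hπ, this]
      split_ifs <;> omega
    · rw [← hb j hj, ← hb j' hj'] at e
      exact Nat.lt_of_div_lt_div e
  · simp only [hπ]
    split_ifs with h
    · obtain ⟨a1, a2, -⟩ := P.shift k P.t 0 j hk (hg j hj h)
      refine P.X_eq (Fin.ext a1) ?_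
      rw [a2, Pi.add_apply, ind, if_pos (show (P.lf j : ℕ) / _ = _ from h)]
      push_cast; ring
    · refine P.X_eq rfl ?_
      rw [Pi.add_apply, ind, if_neg (show ¬ (P.lf j : ℕ) / _ = _ from h), add_zero]

lemma ED_leaf {n K : ℕ} (hK : 0 < K) (hn : P.B ^ P.t * K ≤ n) (a : P.G) (l : P.L) (c : ℕ) :
    ED (word n K (P.B ^ P.t) (P.X (a + P.ind 0 l c))) (word n K (P.B ^ P.t) (P.X a)) ≤
      2 * K * ((range (P.B ^ P.t)).filter fun j => P.lf j = l).card := by
  have := word_le hK hn (P.X (a + P.ind 0 l c)) (P.X a)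
    ((range (P.B ^ P.t)).filter fun j => ¬ P.lf j = l) id
    (fun j hj => mem_range.1 (mem_filter.1 hj).1) (fun j hj => mem_range.1 (mem_filter.1 hj).1)
    (strictMono_id.strictMonoOn _) (fun j hj => ?_)
  · refine this.trans (le_of_eq ?_)
    congr 1
    have := card_filter_add_card_filter_not (s := range (P.B ^ P.t)) fun j => P.lf j = l
    rw [card_range] at this
    omega
  · refine P.X_eq rfl ?_
    rw [Pi.add_apply, ind, if_neg, add_zero, id]
    rw [pow_zero, Nat.div_one]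
    exact fun e => (mem_filter.1 hj).2 (Fin.ext e)

lemma horner : ∀ s k j j', P.leaf s j = P.leaf s j' →
    (P.N s k (P.leaf s j) : ℤ) ∣ (P.ph s k j : ℤ) - P.ph s k j' - P.PI s k →
    ∃ r < s, j / P.B ^ r / P.d % P.b ≠ j' / P.B ^ r / P.d % P.b ∧
      (P.p (k + r) (j / P.B ^ r % P.d) : ℤ) ∣
        ((j / P.B ^ r / P.d % P.b : ℕ) : ℤ) - (j' / P.B ^ r / P.d % P.b : ℕ)
  | 0, k, j, j', _, h => by simp [N, ph, PI] at h
  | s + 1, k, j, j', h1, h => by
    have a1 : P.leaf s (j / P.B) = P.leaf s (j' / P.B) := by rw [← leaf_div, h1, leaf_div]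
    rw [N, leaf_mod, leaf_div, ph, ph, PI_succ'] at h
    have a2 : (P.p k (j % P.d) : ℤ) ∣ P.PP k := by exact_mod_cast P.p_dvd k (Nat.mod_lt _ P.hd)
    have e : ((j / P.d % P.b + P.PP k * P.ph s (k + 1) (j / P.B) : ℕ) : ℤ) -
        (j' / P.d % P.b + P.PP k * P.ph s (k + 1) (j' / P.B) : ℕ) - (P.PP k * P.PI s (k + 1) : ℕ) =
        (((j / P.d % P.b : ℕ) : ℤ) - (j' / P.d % P.b : ℕ)) + P.PP k *
          ((P.ph s (k + 1) (j / P.B) : ℤ) - P.ph s (k + 1) (j' / P.B) - P.PI s (k + 1)) := by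
      simp only [Nat.cast_add, Nat.cast_mul]; ring
    rw [e, Nat.cast_mul] at h
    by_cases hg : j / P.d % P.b = j' / P.d % P.b
    · rw [hg, sub_self, zero_add] at h
      have a3 := (Nat.isCoprime_iff_coprime.2 (P.N_cop s (k + 1) k (P.leaf s (j / P.B))
        (by omega))).dvd_of_dvd_mul_left ((Dvd.intro_left _ rfl).trans h)
      obtain ⟨r, hr, b1, b2⟩ := horner s (k + 1) _ _ a1 a3
      refine ⟨r + 1, by omega, ?_⟩
      rw [pow_succ', ← Nat.div_div_eq_div_mul, ← Nat.div_div_eq_div_mul,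
        show k + (r + 1) = k + 1 + r by omega]
      exact ⟨b1, b2⟩
    · refine ⟨0, by omega, by simpa using hg, ?_⟩
      simp only [pow_zero, Nat.div_one, add_zero]
      exact (dvd_add_left (a2.mul_right _)).1 ((Dvd.intro _ rfl).trans h)

lemma few_primes {D : ℕ} (hD : P.b ≤ 2 ^ D) (k : ℕ) {g g' : ℕ} (hg : g < P.b) (hg' : g' < P.b)
    (hne : g ≠ g') : ((range P.d).filter fun i => (P.p k i : ℤ) ∣ (g : ℤ) - g').card ≤ D := by
  set I := (range P.d).filter fun i => (P.p k i : ℤ) ∣ (g : ℤ) - g' with hI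
  have h1 : ∏ i ∈ I, P.p k i ∣ ((g : ℤ) - g').natAbs := by
    refine prod_dvd_of_isRelPrime (fun i hi i' hi' h => ?_) fun i hi => ?_
    · refine Nat.coprime_iff_isRelPrime.1 ((Nat.coprime_primes (P.hp _ _) (P.hp _ _)).2 fun e => h ?_)
      exact (P.hinj _ _ _ _ (mem_range.1 (mem_filter.1 hi).1) (mem_range.1 (mem_filter.1 hi').1) e).2
    · exact Int.natCast_dvd.1 (mem_filter.1 hi).2
  have h2 := Nat.le_of_dvd (by omega) h1
  have h3 : 2 ^ I.card ≤ ∏ i ∈ I, P.p k i := pow_card_le_prod _ _ _ fun i _ => (P.hp _ _).two_le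
  have h4 : 2 ^ I.card < 2 ^ D := by omega
  exact ((Nat.pow_lt_pow_iff_right one_lt_two).1 h4).le

lemma lcs_le {D : ℕ} (hD : P.b ≤ 2 ^ D) (hd : 4 * P.t * D ≤ P.d) (a : P.G) (L : ℕ) (α β : ℕ → ℕ)
    (hα : StrictMonoOn α (Set.Iio L)) (hβ : StrictMonoOn β (Set.Iio L))
    (h : ∀ r < L, α r < P.B ^ P.t ∧ β r < P.B ^ P.t ∧
      P.X a (α r) = P.X (a + P.ind P.t 0 (P.PI P.t 0)) (β r)) : 2 * L ≤ P.B ^ P.t := by
  set T : ℕ → Finset ℕ := fun k => (range L).filter fun r =>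
    α r / P.B ^ k / P.d % P.b ≠ β r / P.B ^ k / P.d % P.b ∧ (P.p k (α r / P.B ^ k % P.d) : ℤ) ∣
      ((α r / P.B ^ k / P.d % P.b : ℕ) : ℤ) - (β r / P.B ^ k / P.d % P.b : ℕ) with hT
  have h1 : range L ⊆ (range P.t).biUnion T := by
    intro r hr
    have a1 := (h r (mem_range.1 hr)).2.2
    have hq : 0 < 2 * P.q ^ P.t := by have := P.hq0; positivity
    have a2 : P.leaf P.t (α r) = P.leaf P.t (β r) := by
      have := congrArg (· / (2 * P.q ^ P.t)) a1
      simp only [X] at this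
      rwa [add_comm, Nat.add_mul_div_right _ _ hq, Nat.div_eq_of_lt (P.val_lt _), add_comm (_ * _),
        Nat.add_mul_div_right _ _ hq, Nat.div_eq_of_lt (P.val_lt _), zero_add, zero_add] at this
    have a3 : P.lf (α r) = P.lf (β r) := Fin.ext a2
    unfold X at a1
    rw [a2, ← a3, Nat.add_left_cancel_iff] at a1
    have a4 := ZMod.val_injective _ a1
    rw [Pi.add_apply, ind, if_pos (Nat.div_eq_of_lt (Fin.is_lt _)), add_assoc,
      add_right_inj] at a4
    have a5 : (P.Q (P.lf (α r)) : ℤ) ∣ (P.ph P.t 0 (α r) : ℤ) - P.ph P.t 0 (β r) - P.PI P.t 0 := by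
      rw [← ZMod.intCast_zmod_eq_zero_iff_dvd]
      push_cast
      rw [a4]; ring
    obtain ⟨k, hk, b1, b2⟩ := P.horner P.t 0 _ _ a2 a5
    rw [zero_add] at b2
    exact mem_biUnion.2 ⟨k, mem_range.2 hk, mem_filter.2 ⟨hr, b1, b2⟩⟩
  have h2 : ∀ k ∈ range P.t, (T k).card * P.d ≤ 2 * D * P.B ^ P.t := by
    intro k hk
    obtain ⟨s, hs⟩ : ∃ s, P.t = s + (k + 1) := ⟨P.t - (k + 1), by have := mem_range.1 hk; omega⟩
    have hB : 0 < P.B ^ k := pow_pos P.B_pos _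
    have e : P.B ^ P.t = P.B ^ s * P.b * P.d * P.B ^ k := by rw [hs, pow_add, pow_succ, B]; ring
    have a0 : ∀ j < P.B ^ P.t, j / P.B ^ k / P.d < P.B ^ s * P.b := fun j hj => by
      rwa [Nat.div_lt_iff_lt_mul P.hd, Nat.div_lt_iff_lt_mul hB, ← e]
    have mono : ∀ {γ : ℕ → ℕ}, StrictMonoOn γ (Set.Iio L) → ∀ r < L, ∀ r' < L, r ≤ r' →
        γ r / P.B ^ k / P.d ≤ γ r' / P.B ^ k / P.d := fun hγ r hr r' hr' hle =>
      Nat.div_le_div_right (Nat.div_le_div_right (hγ.monotoneOn hr hr' hle))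
    have a1 := card_le_mul_card_image_of_maps_to (s := T k) (t := range (2 * (P.B ^ s * P.b)))
      (f := fun r => α r / P.B ^ k / P.d + β r / P.B ^ k / P.d) (fun r hr => ?_) (D * P.B ^ k)
      (fun σ _ => ?_)
    · rw [card_range] at a1
      refine (Nat.mul_le_mul_right _ a1).trans (le_of_eq ?_)
      rw [e]; ring
    · have := h r (mem_range.1 (mem_filter.1 hr).1)
      have b1 := a0 _ this.1
      have b2 := a0 _ this.2.1
      exact mem_range.2 (by omega)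
    rcases ((T k).filter fun r => α r / P.B ^ k / P.d + β r / P.B ^ k / P.d = σ).eq_empty_or_nonempty
      with h0 | ⟨r₀, h0⟩
    · rw [h0]; simp
    obtain ⟨c1, c2⟩ := mem_filter.1 h0
    obtain ⟨c3, c4, -⟩ := mem_filter.1 c1
    have same : ∀ r ∈ (T k).filter fun r => α r / P.B ^ k / P.d + β r / P.B ^ k / P.d = σ,
        α r / P.B ^ k / P.d = α r₀ / P.B ^ k / P.d ∧ β r / P.B ^ k / P.d = β r₀ / P.B ^ k / P.d := by
      intro r hr
      obtain ⟨d1, d2⟩ := mem_filter.1 hr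
      have d3 := mem_range.1 (mem_filter.1 d1).1
      rcases le_total r r₀ with d4 | d4
      · have := mono hα r d3 r₀ (mem_range.1 c3) d4
        have := mono hβ r d3 r₀ (mem_range.1 c3) d4
        omega
      · have := mono hα r₀ (mem_range.1 c3) r d3 d4
        have := mono hβ r₀ (mem_range.1 c3) r d3 d4
        omega
    have b1 := P.few_primes hD k (Nat.mod_lt _ P.hb) (Nat.mod_lt _ P.hb) c4
    refine le_trans (card_le_card_of_injOn (t := ((range P.d).filter fun i => (P.p k i : ℤ) ∣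
      ((α r₀ / P.B ^ k / P.d % P.b : ℕ) : ℤ) - (β r₀ / P.B ^ k / P.d % P.b : ℕ)) ×ˢ range (P.B ^ k))
      (fun r => (α r / P.B ^ k % P.d, α r % P.B ^ k)) (fun r hr => ?_) fun r hr r' hr' e => ?_) ?_
    · obtain ⟨d1, d2⟩ := same r hr
      have d3 := (mem_filter.1 (mem_filter.1 hr).1).2.2
      rw [d1, d2] at d3
      exact mem_coe.2 (mem_product.2 ⟨mem_filter.2 ⟨mem_range.2 (Nat.mod_lt _ P.hd), d3⟩,
        mem_range.2 (Nat.mod_lt _ hB)⟩)
    · simp only [Prod.mk.injEq] at e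
      have d1 : α r / P.B ^ k = α r' / P.B ^ k := by
        rw [← Nat.div_add_mod' (α r / P.B ^ k) P.d, (same r hr).1, e.1, ← (same r' hr').1,
          Nat.div_add_mod']
      refine hα.injOn (mem_range.1 (mem_filter.1 (mem_filter.1 hr).1).1)
        (mem_range.1 (mem_filter.1 (mem_filter.1 hr').1).1) ?_
      rw [← Nat.div_add_mod' (α r) (P.B ^ k), d1, e.2, Nat.div_add_mod']
    · rw [card_product, card_range]
      exact Nat.mul_le_mul_right _ b1
  have h3 := Nat.mul_le_mul_right P.d ((card_le_card h1).trans card_biUnion_le)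
  rw [card_range, sum_mul] at h3
  have h4 := h3.trans (sum_le_card_nsmul _ _ _ h2)
  rw [card_range, smul_eq_mul] at h4
  have h5 := Nat.mul_le_mul_left (P.B ^ P.t) hd
  refine Nat.le_of_mul_le_mul_right ?_ P.hd
  nlinarith

end Par
end Vale.Agent.P238
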