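import Vale.Agent.P238.Four

namespace Vale.Agent.P238

open Finset

structure Par where
  t : ℕ
  d : ℕ
  b : ℕ
  q : ℕ
  p : ℕ → ℕ → ℕ
  hd : 0 < d
  hb : 0 < b
  hq0 : 0 < q
  hp : ∀ k i, (p k i).Prime
  h2 : ∀ k i, p k i ≠ 2
  hinj : ∀ k k' i i', i < d → i' < d → p k i = p k' i' → k = k' ∧ i = i'
  hq : ∀ k < t, ∀ i < d, p k i ≤ q

namespace Par
variable (P : Par)

def PP (k : ℕ) : ℕ := ∏ i ∈ range P.d, P.p k i

def PI (s k : ℕ) : ℕ := ∏ j ∈ range s, P.PP (k + j)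

def N : ℕ → ℕ → ℕ → ℕ
  | 0, _, _ => 2
  | s + 1, k, ν => P.p k (ν % P.d) * N s (k + 1) (ν / P.d)

lemma N_pos : ∀ s k ν, 0 < P.N s k ν
  | 0, _, _ => two_pos
  | s + 1, _, _ => Nat.mul_pos (P.hp _ _).pos (N_pos s _ _)

lemma N_le : ∀ s k ν, k + s ≤ P.t → P.N s k ν ≤ 2 * P.q ^ s
  | 0, _, _, _ => le_rfl
  | s + 1, k, ν, h => by
    have := Nat.mul_le_mul (P.hq k (by omega) _ (Nat.mod_lt ν P.hd))
      (N_le s (k + 1) (ν / P.d) (by omega))
    rw [N, pow_succ]; nlinarith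

lemma N_cop : ∀ s k k' ν, k' < k → Nat.Coprime (P.N s k ν) (P.PP k')
  | 0, _, k', _, _ => Nat.Coprime.prod_right fun i _ =>
      (Nat.coprime_primes Nat.prime_two (P.hp _ _)).2 (P.h2 _ _).symm
  | s + 1, k, k', ν, h => Nat.Coprime.mul_left (Nat.Coprime.prod_right fun i hi =>
      (Nat.coprime_primes (P.hp _ _) (P.hp _ _)).2 fun e => by
        have := (P.hinj _ _ _ _ (Nat.mod_lt ν P.hd) (mem_range.1 hi) e).1
        omega) (N_cop s _ _ _ (by omega))

lemma p_dvd (k : ℕ) {i : ℕ} (hi : i < P.d) : P.p k i ∣ P.PP k :=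
  dvd_prod_of_mem _ (mem_range.2 hi)

lemma PI_succ (k : ℕ) : P.PI (k + 1) 0 = P.PP k * P.PI k 0 := by
  simp [PI, prod_range_succ, mul_comm]

lemma PI_succ' (s k : ℕ) : P.PI (s + 1) k = P.PP k * P.PI s (k + 1) := by
  simp [PI, prod_range_succ', mul_comm, add_assoc, add_comm 1]

abbrev L : Type := Fin (P.d ^ P.t)

def Q (l : P.L) : ℕ := P.N P.t 0 l

instance (l : P.L) : NeZero (P.Q l) := ⟨(P.N_pos _ _ _).ne'⟩

abbrev G : Type := (l : P.L) → ZMod (P.Q l)

def ind (k ν c : ℕ) : P.G := fun l => if (l : ℕ) / P.d ^ k = ν then (c : ZMod (P.Q l)) else 0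

lemma split {M : Type} [AddCommMonoid M] (x ν : ℕ) (c : M) :
    ∑ i ∈ range P.d, (if x = ν * P.d + i then c else 0) = if x / P.d = ν then c else 0 := by
  have hd := P.hd
  split_ifs with h
  · rw [sum_eq_single (x % P.d), if_pos (by rw [← h]; exact (Nat.div_add_mod' _ _).symm)]
    · intro i hi hne
      refine if_neg fun e => hne ?_
      rw [e, Nat.add_comm, Nat.add_mul_mod_self_right, Nat.mod_eq_of_lt (mem_range.1 hi)]
    · intro h; exact absurd (mem_range.2 (Nat.mod_lt _ hd)) h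
  · refine sum_eq_zero fun i hi => if_neg fun e => h ?_
    rw [e, Nat.add_comm, Nat.add_mul_div_right _ _ hd, Nat.div_eq_of_lt (mem_range.1 hi), zero_add]

lemma ind_split (k ν c : ℕ) : P.ind (k + 1) ν c = ∑ i ∈ range P.d, P.ind k (ν * P.d + i) c := by
  funext l
  simp only [ind, Finset.sum_apply]
  rw [P.split, Nat.div_div_eq_div_mul, pow_succ]

lemma ind_smul (k ν m c : ℕ) : P.ind k ν (m * c) = m • P.ind k ν c := by
  funext l
  simp only [ind, Pi.smul_apply]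
  split_ifs <;> simp

lemma Q_dvd (l : ℕ) : ∀ k ≤ P.t, P.N P.t 0 l ∣ P.N (P.t - k) k (l / P.d ^ k) * P.PI k 0
  | 0, _ => by simp [PI]
  | k + 1, h => by
    refine (Q_dvd l k (by omega)).trans ?_
    rw [show P.t - k = P.t - (k + 1) + 1 by omega, N, PI_succ, Nat.div_div_eq_div_mul, ← pow_succ,
      ← mul_assoc, mul_comm (P.p _ _)]
    exact Nat.mul_dvd_mul_right (Nat.mul_dvd_mul_left _ (P.p_dvd _ (Nat.mod_lt _ P.hd))) _

lemma ind_kill {k : ℕ} (hk : k ≤ P.t) (ν : ℕ) : P.N (P.t - k) k ν • P.ind k ν (P.PI k 0) = 0 := by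
  rw [← ind_smul]
  funext l
  simp only [ind, Pi.zero_apply]
  split_ifs with h
  · rw [ZMod.natCast_eq_zero_iff, ← h]; exact P.Q_dvd l k hk
  · rfl

open Classical in
noncomputable def act (ψ : AddChar P.G ℂ) (k ν : ℕ) : ℕ :=
  ∑ l : P.L, if (l : ℕ) / P.d ^ k = ν then (if ψ (P.ind 0 l 1) ≠ 1 then 1 else 0) else 0

lemma act_split (ψ : AddChar P.G ℂ) (k ν : ℕ) :
    P.act ψ (k + 1) ν = ∑ i ∈ range P.d, P.act ψ k (ν * P.d + i) := by
  unfold act
  rw [sum_comm]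
  refine sum_congr rfl fun l _ => ?_
  rw [P.split, Nat.div_div_eq_div_mul, pow_succ]

lemma map_sum' (ψ : AddChar P.G ℂ) (s : Finset ℕ) (f : ℕ → P.G) :
    ψ (∑ i ∈ s, f i) = ∏ i ∈ s, ψ (f i) := by
  classical
  induction s using Finset.induction_on with
  | empty => simp
  | insert a s ha ih => rw [sum_insert ha, prod_insert ha, ψ.map_add_eq_mul, ih]

lemma act_ge (ψ : AddChar P.G ℂ)
    (hs : ∀ k < P.t, ∀ ν, (2 * P.q ^ (2 * P.t) : ℕ) * ‖1 - ψ (P.ind (k + 1) ν (P.PI k 0))‖ < 1) :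
    ∀ k ≤ P.t, ∀ ν, ψ (P.ind k ν (P.PI k 0)) ≠ 1 → P.t ^ k ≤ P.act ψ k ν
  | 0, _, ν, h => by
    have h1 : ν < P.d ^ P.t := by
      by_contra h1
      refine h ?_
      have : P.ind 0 ν (P.PI 0 0) = 0 := by
        funext l
        have := l.2
        exact if_neg (by rw [pow_zero, Nat.div_one]; omega)
      rw [this, AddChar.map_zero_eq_one]
    refine le_trans ?_ (single_le_sum (fun _ _ => Nat.zero_le _) (mem_univ (⟨ν, h1⟩ : P.L)))
    have h2 : P.PI 0 0 = 1 := by simp [PI]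
    rw [h2] at h
    simp [h]
  | k + 1, hk, ν, h => by
    classical
    set z := ψ (P.ind (k + 1) ν (P.PI k 0)) with hz
    have z1 : z ≠ 1 := fun e => h (by rw [PI_succ, ind_smul, AddChar.map_nsmul_eq_pow, ← hz, e, one_pow])
    set I := (range P.d).filter fun i => ψ (P.ind k (ν * P.d + i) (P.PI k 0)) ≠ 1 with hI
    set E := P.N (P.t - (k + 1)) (k + 1) ν * ∏ i ∈ I, P.p k i with hE
    have z2 : z ^ E = 1 := by
      rw [hz, ind_split, map_sum', ← prod_pow]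
      refine prod_eq_one fun i hi => ?_
      by_cases hi' : i ∈ I
      · have a1 := congrArg ψ (P.ind_kill (k := k) (by omega) (ν * P.d + i))
        rw [AddChar.map_nsmul_eq_pow, AddChar.map_zero_eq_one,
          show P.t - k = P.t - (k + 1) + 1 by omega, N, Nat.add_comm (ν * P.d),
          Nat.add_mul_mod_self_right, Nat.add_mul_div_right _ _ P.hd,
          Nat.mod_eq_of_lt (mem_range.1 hi), Nat.div_eq_of_lt (mem_range.1 hi), zero_add] at a1
        obtain ⟨c, hc⟩ := dvd_prod_of_mem (fun i => P.p k i) hi'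
        rw [hE, hc, ← mul_assoc, mul_comm _ (P.p k i), pow_mul, Nat.add_comm (ν * P.d), a1, one_pow]
      · have : ψ (P.ind k (ν * P.d + i) (P.PI k 0)) = 1 := by
          by_contra e; exact hi' (mem_filter.2 ⟨hi, e⟩)
        rw [this, one_pow]
    have hE0 : 0 < E := Nat.mul_pos (P.N_pos _ _ _) (prod_pos fun i _ => (P.hp _ _).pos)
    have z3 := root_far hE0 (AddChar.norm_apply _ _) z1 z2
    have z4 := hs k (by omega) ν
    rw [← hz] at z4
    have z5 : 2 * P.q ^ (2 * P.t) < E := by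
      by_contra e
      have : (E : ℝ) ≤ (2 * P.q ^ (2 * P.t) : ℕ) := by exact_mod_cast not_lt.1 e
      nlinarith [norm_nonneg (1 - z)]
    have z6 : P.t ≤ I.card := by
      by_contra e
      have a1 : ∏ i ∈ I, P.p k i ≤ P.q ^ I.card :=
        prod_le_pow_card _ _ _ fun i hi => P.hq k (by omega) i (mem_range.1 (mem_filter.1 hi).1)
      have a2 := Nat.mul_le_mul (P.N_le (P.t - (k + 1)) (k + 1) ν (by omega)) a1
      have a3 : P.q ^ (P.t - (k + 1) + I.card) ≤ P.q ^ (2 * P.t) :=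
        Nat.pow_le_pow_right P.hq0 (by omega)
      rw [mul_assoc, ← pow_add] at a2
      omega
    rw [act_split]
    refine le_trans ?_ (sum_le_sum_of_subset (filter_subset _ _ : I ⊆ _))
    refine le_trans ?_ (card_nsmul_le_sum I _ (P.t ^ k) fun i hi =>
      act_ge ψ hs k (by omega) _ (mem_filter.1 hi).2)
    rw [pow_succ, smul_eq_mul, mul_comm]
    exact Nat.mul_le_mul_right _ z6

lemma char_ineq (ht : 0 < P.t) (ψ : AddChar P.G ℂ) :
    ‖1 - ψ (P.ind P.t 0 (P.PI P.t 0))‖ ^ 2 ≤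
      ∑ x : Fin P.t × P.L, 4 * ((2 * P.q ^ (2 * P.t) : ℕ) : ℝ) ^ 2 *
        ‖1 - ψ (P.ind (x.1 + 1) x.2 (P.PI x.1 0))‖ ^ 2 +
      ∑ x : (l : P.L) × Fin (P.Q l), 2 / (P.t : ℝ) ^ P.t / P.Q x.1 *
        ‖1 - ψ (P.ind 0 x.1 x.2)‖ ^ 2 := by
  classical
  have h4 : ‖1 - ψ (P.ind P.t 0 (P.PI P.t 0))‖ ^ 2 ≤ 4 := by
    have := norm_sub_le 1 (ψ (P.ind P.t 0 (P.PI P.t 0)))
    rw [norm_one, AddChar.norm_apply] at this
    nlinarith [norm_nonneg (1 - ψ (P.ind P.t 0 (P.PI P.t 0)))]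
  set m : ℝ := ((2 * P.q ^ (2 * P.t) : ℕ) : ℝ) with hm
  by_cases hs : ∀ k < P.t, ∀ ν, m * ‖1 - ψ (P.ind (k + 1) ν (P.PI k 0))‖ < 1
  · by_cases h : ψ (P.ind P.t 0 (P.PI P.t 0)) = 1
    · rw [h, sub_self, norm_zero, zero_pow two_ne_zero]; positivity
    have a1 := P.act_ge ψ hs P.t le_rfl 0 h
    refine h4.trans (le_add_of_nonneg_of_le (by positivity) ?_)
    have ht' : (0 : ℝ) < (P.t : ℝ) ^ P.t := by positivity
    have a2 : (4 : ℝ) ≤ 4 / (P.t : ℝ) ^ P.t * P.act ψ P.t 0 := by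
      rw [div_mul_eq_mul_div, le_div_iff₀ ht']
      have : ((P.t : ℝ)) ^ P.t ≤ P.act ψ P.t 0 := by exact_mod_cast a1
      linarith
    refine a2.trans ?_
    rw [Fintype.sum_sigma, act, Nat.cast_sum, mul_sum]
    refine sum_le_sum fun l _ => ?_
    split_ifs with b1 b2
    · have b3 := congrArg ψ (P.ind_kill (Nat.zero_le _) l)
      have h2 : P.PI 0 0 = 1 := by simp [PI]
      rw [AddChar.map_nsmul_eq_pow, AddChar.map_zero_eq_one, h2] at b3
      have b4 := root_avg (AddChar.norm_apply _ _) b2 b3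
      have b5 : ∀ j : ℕ, ψ (P.ind 0 l j) = ψ (P.ind 0 l 1) ^ j := fun j => by
        rw [← AddChar.map_nsmul_eq_pow, ← ind_smul, mul_one]
      have b6 : (0 : ℝ) < P.Q l := by exact_mod_cast P.N_pos _ _ _
      have b7 : ∑ j : Fin (P.Q l), ‖1 - ψ (P.ind 0 l j)‖ ^ 2 = 2 * (P.Q l : ℝ) := by
        rw [Fin.sum_univ_eq_sum_range (fun j => ‖1 - ψ (P.ind 0 l j)‖ ^ 2),
          sum_congr rfl fun j _ => by rw [b5 j]]
        exact b4
      dsimp only
      rw [← mul_sum, b7]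
      apply le_of_eq
      field_simp
      norm_num
    · simp only [Nat.cast_zero, mul_zero]; positivity
    · simp only [Nat.cast_zero, mul_zero]; positivity
  · push Not at hs
    obtain ⟨k, hk, ν, h⟩ := hs
    have h1 : ν < P.d ^ P.t := by
      by_contra h1
      have : P.ind (k + 1) ν (P.PI k 0) = 0 := by
        funext l
        have := l.2
        have := Nat.div_le_self l (P.d ^ (k + 1))
        exact if_neg (by omega)
      rw [this, AddChar.map_zero_eq_one] at h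
      norm_num at h
    refine h4.trans (le_add_of_le_of_nonneg ?_ (by positivity))
    refine le_trans ?_ (single_le_sum (fun _ _ => by positivity)
      (mem_univ ((⟨k, hk⟩, ⟨ν, h1⟩) : Fin P.t × P.L)))
    dsimp only
    nlinarith

end Par
end Vale.Agent.P238
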